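import Vale.Agent.P181.FL.H761.Tr
import Vale.Agent.P181.FL2.Defs

set_option autoImplicit false

/-!
# P181, FL2, row TR: from even letters to odd letters, any parity
-/

open scoped BigOperators

namespace Vale.Agent.P181.FL2.H761

open Finset Equiv Vale.Agent.P181.FL Vale.Agent.P181.FL.H761
open Vale.Agent.P181.FL2 (blk Slot DomG WordG TrG)

variable {n : ℕ} {lam : Fin n → ℕ}

/-- the transform at the columns of a filling is the column antisymmetrisation -/
theorem kap_cols {P : Type} [Fintype P] [DecidableEq P] {M : ℕ} (hlam : ∀ i, lam i ≤ M)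
    (f : (P → Fin n) → ℂ) (l0 l : P ≃ Cell lam) :
    kap M f l0 (fun p => ⟨(l p).2, lt_of_lt_of_le (l p).2.isLt (hlam _)⟩) =
      sg (l.trans l0.symm) * ∑ g : Perm (Cell lam),
        (if ∀ c, ((g c).2 : ℕ) = (c.2 : ℕ) then
          ((Perm.sign g : ℤ) : ℂ) * f (fun p => (g (l p)).1) else 0) := by
  unfold kap
  rw [Finset.mul_sum]
  refine Fintype.sum_equiv (Equiv.equivCongr l (Equiv.refl (Cell lam))) _ _ (fun l' => ?_)
  have h1 : (∀ p, ((l' p).2 : ℕ) = ((l p).2 : ℕ)) ↔
      (∀ x, (((Equiv.equivCongr l (Equiv.refl (Cell lam)) l') x).2 : ℕ) = (x.2 : ℕ)) := by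
    constructor
    · intro h x
      have h3 : ((l' (l.symm x)).2 : ℕ) = ((l (l.symm x)).2 : ℕ) := h (l.symm x)
      have e3 : l (l.symm x) = x := l.apply_symm_apply x
      rw [e3] at h3
      exact h3
    · intro h p
      have h3 := h (l p)
      have e3 : (Equiv.equivCongr l (Equiv.refl (Cell lam)) l') (l p) = l' p := by simp
      rw [e3] at h3
      exact h3
  by_cases hc : ∀ p, ((l' p).2 : ℕ) = ((l p).2 : ℕ)
  · rw [if_pos hc, if_pos (h1.1 hc)]
    have h4 : (fun p => (l' p).1) = fun p =>
        ((Equiv.equivCongr l (Equiv.refl (Cell lam)) l') (l p)).1 := by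
      funext p
      simp
    have h5 : sg (l'.trans l0.symm) = sg (l.trans l0.symm) *
        sg (Equiv.equivCongr l (Equiv.refl (Cell lam)) l' : Perm (Cell lam)) := by
      have h6 : (l'.trans l0.symm : Perm P) =
          (l0.trans ((Equiv.equivCongr l (Equiv.refl (Cell lam)) l').trans l0.symm) :
            Perm P) * (l.trans l0.symm) := by
        ext p
        simp
      rw [h6, sg_mul, mul_comm]
      congr 1
      unfold sg
      rw [← Perm.sign_trans_trans_symm (Equiv.equivCongr l (Equiv.refl (Cell lam)) l') l0]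
      rfl
    rw [h5, ← h4]
    unfold sg
    ring
  · rw [if_neg hc, if_neg (fun h => hc (h1.2 h))]
    simp

theorem trG : TrG := by
  intro hC N q m n M hD lam f hant hlam hf hslot hblock
  by_contra hne
  push Not at hne
  obtain ⟨w0, hw0⟩ := hne
  have hcard : Fintype.card (Pos N q m) = Fintype.card (Cell lam) := by
    rw [Fintype.card_sigma]
    simp only [Fintype.card_fin]
    have h := hf.wt w0 hw0
    rw [← Finset.sum_congr rfl (fun i _ => h i)]
    rw [← Finset.card_univ]
    exact Finset.card_eq_sum_card_fiberwise (fun x _ => Finset.mem_univ (w0 x))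
  let l0 : Pos N q m ≃ Cell lam := Fintype.equivOfCardEq hcard
  have hk : ∀ c : Pos N q m → Fin M, kap M f l0 c = 0 := by
    refine hD (kap M f l0) ?_ ?_
    · intro e he c
      rw [kap_comp]
      have : (fun w : Pos N q m → Fin n => f (fun p => w (e p))) = f := by
        funext w
        exact hslot e he w
      rw [this]
      rfl
    · intro c
      have h : ∀ g : Perm (Fin N × Fin q), ((Perm.sign (blk m g) : ℤ) : ℂ) *
          kap M f l0 (fun p => c (blk m g p)) =
          kap M (fun w => f (fun p => w (blk m g p))) l0 c := by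
        intro g
        rw [kap_comp M f l0 (blk m g) c, ← mul_assoc]
        have h2 : ((Perm.sign (blk m g) : ℤ) : ℂ) * sg (blk m g) = 1 := sg_sq (blk m g)
        rw [h2, one_mul]
      rw [Finset.sum_congr rfl (fun g _ => h g)]
      unfold kap
      rw [Finset.sum_comm]
      refine Finset.sum_eq_zero (fun l _ => ?_)
      by_cases hc : ∀ p, ((l p).2 : ℕ) = (c p : ℕ)
      · simp only [if_pos hc]
        rw [← Finset.mul_sum, hblock (fun p => (l p).1), mul_zero]
      · simp only [if_neg hc]
        exact Finset.sum_const_zero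
  refine hw0 (hC n lam (Pos N q m) f hant hf ?_ w0)
  intro l
  have h := kap_cols hlam f l0 l
  rw [hk] at h
  exact (mul_eq_zero.1 h.symm).resolve_left (sg_ne _)

end Vale.Agent.P181.FL2.H761
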